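import Vale.Agent.P014T.Bt.Defs
import Vale.Agent.P014T.Ba.Dv

/-! # P014T, block B: the points of order a power of two fixed by a complex conjugation -/

set_option autoImplicit false
set_option linter.all false

open NumberField
open scoped Classical

noncomputable section

namespace Vale.Agent.P014T.Bt

open Vale.Agent.P022 (Qb GQ)
open Vale.Agent.P022K.G2 (In)
open P004M.TE hiding Qb GQ
open P027M.K WeierstrassCurve.Affine
open P004S.Ga (K O mem_O)
open Wm (Fx)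
open Ba (Dv)
open P025H816 (tors)

section hm

variable {Y : Type} [AddCommGroup Y]

theorem ex_lv (s : K) : ∃ (k : ℕ) (a : ℤ_[2]), s = a / 2 ^ k := by
  obtain ⟨k, hk⟩ := pow_unbounded_of_one_lt ‖s‖ (show (1 : ℝ) < 2 by norm_num)
  have e : ‖(2 : K)‖ = 2⁻¹ := by simpa using Padic.norm_p (p := 2)
  refine ⟨k, ⟨s * 2 ^ k, ?_⟩, by simp⟩
  rw [norm_mul, norm_pow, e, inv_pow, ← div_eq_mul_inv, div_le_one (by positivity)]
  exact hk.le

theorem c2 : ((2 : ℤ_[2]) : K) = 2 := rfl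

theorem cp_up (x : TM 2 Y) (k j : ℕ) : TM.cp (k + j) ((2 : ℤ_[2]) ^ j • x) = TM.cp k x :=
  (TM.cp_pow_smul x j (k + j)).trans (TM.cp_add x k j)

theorem cp_congr (x : TM 2 Y) {k j : ℕ} {a b : ℤ_[2]} (h : (a : K) / 2 ^ k = b / 2 ^ j) :
    TM.cp k (a • x) = TM.cp j (b • x) := by
  have e : (2 : ℤ_[2]) ^ j * a = 2 ^ k * b := Subtype.ext (by
    rw [div_eq_div_iff (by simp) (by simp)] at h
    push_cast [c2]
    linear_combination h)
  rw [← cp_up (a • x) k j, ← cp_up (b • x) j k, ← mul_smul, ← mul_smul, e, add_comm]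

/-- the map on `K` -/
def h0 (x : TM 2 Y) : K →+ Y :=
  AddMonoidHom.mk' (fun s => TM.cp (ex_lv s).choose ((ex_lv s).choose_spec.choose • x)) fun s t => by
    obtain ⟨k, a, rfl⟩ := ex_lv s
    obtain ⟨j, b, rfl⟩ := ex_lv t
    rw [cp_congr x (ex_lv _).choose_spec.choose_spec.symm,
      cp_congr x (ex_lv _).choose_spec.choose_spec.symm, ← cp_up (a • x) k j, ← cp_up (b • x) j k,
      add_comm j k, ← map_add, ← mul_smul, ← mul_smul, ← add_smul]
    refine cp_congr x ((ex_lv _).choose_spec.choose_spec.symm.trans ?_)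
    push_cast [c2]
    field_simp
    ring

theorem h0_eq (x : TM 2 Y) (k : ℕ) (a : ℤ_[2]) : h0 x (a / 2 ^ k) = TM.cp k (a • x) :=
  cp_congr x (ex_lv _).choose_spec.choose_spec.symm

/-- **the map `K / O → Y` given by an element of the Tate module** -/
def hm (x : TM 2 Y) : Dv →+ Y :=
  QuotientAddGroup.lift O (h0 x) fun s hs => by
    have := h0_eq x 0 ⟨s, hs⟩
    rwa [pow_zero, div_one, TM.cp_zero] at this

theorem hm_mk (x : TM 2 Y) (k : ℕ) (a : ℤ_[2]) :
    hm x ((a / 2 ^ k : K) : Dv) = TM.cp k (a • x) := h0_eq x k a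

theorem ex_dv (s : Dv) : ∃ (k : ℕ) (a : ℤ_[2]), s = ((a / 2 ^ k : K) : Dv) := by
  obtain ⟨s, rfl⟩ := QuotientAddGroup.mk_surjective s
  obtain ⟨k, a, rfl⟩ := ex_lv s
  exact ⟨k, a, rfl⟩

theorem mem_hm {x : TM 2 Y} {y : Y} :
    y ∈ (hm x).range ↔ ∃ (k : ℕ) (a : ℤ_[2]), TM.cp k (a • x) = y :=
  ⟨fun ⟨s, e⟩ => by obtain ⟨k, a, rfl⟩ := ex_dv s; exact ⟨k, a, (hm_mk x k a).symm.trans e⟩,
    fun ⟨k, a, e⟩ => ⟨_, (hm_mk x k a).trans e⟩⟩

theorem hm_inj {x : TM 2 Y} (h : TM.cp 1 x ≠ 0) : Function.Injective (hm x) := by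
  refine (injective_iff_map_eq_zero _).2 fun s hs => ?_
  obtain ⟨k, a, rfl⟩ := ex_dv s
  rw [hm_mk] at hs
  rw [QuotientAddGroup.eq_zero_iff]
  induction k generalizing a with
  | zero => simpa [mem_O] using a.2
  | succ k ih =>
    by_cases u : IsUnit a
    · obtain ⟨b, hb⟩ := u.exists_left_inv
      refine absurd ?_ h
      rw [← one_smul ℤ_[2] x, ← hb, mul_smul, TM.cp_smul, ← TM.cp_add (a • x) 1 k, add_comm 1 k, hs,
        nsmul_zero, nsmul_zero]
    · obtain ⟨b, rfl⟩ := (PadicInt.norm_lt_one_iff_dvd a).1 (PadicInt.not_isUnit_iff.1 u)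
      have e : ((((2 : ℕ) : ℤ_[2]) * b : ℤ_[2]) : K) / 2 ^ (k + 1) = b / 2 ^ k := by
        push_cast [c2]
        field_simp
        ring
      rw [e]
      exact ih b ((cp_congr x e).symm.trans hs)

theorem hm_div {x : TM 2 Y} {y : Y} (h : y ∈ (hm x).range) : ∃ z ∈ (hm x).range, 2 • z = y := by
  obtain ⟨k, a, rfl⟩ := mem_hm.1 h
  exact ⟨_, mem_hm.2 ⟨k + 1, a, rfl⟩, TM.cp_succ _ _⟩

theorem hm_two {x : TM 2 Y} (h : TM.cp 1 x ≠ 0) : Nat.card ↥((hm x).range ⊓ tors Y 2) = 2 := by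
  have h2 : 2 • TM.cp 1 x = 0 := (TM.cp_succ x 0).trans (TM.cp_zero x)
  rw [show (hm x).range ⊓ tors Y 2 = AddSubgroup.zmultiples (TM.cp 1 x) from le_antisymm ?_
    (AddSubgroup.zmultiples_le_of_mem ⟨mem_hm.2 ⟨1, 1, by rw [one_smul]⟩, h2⟩),
    Nat.card_zmultiples, addOrderOf_eq_prime h2 h]
  rintro _ ⟨⟨s, rfl⟩, e⟩
  obtain ⟨s, rfl⟩ := QuotientAddGroup.mk_surjective s
  have := hm_inj h (((map_nsmul (hm x) 2 (s : Dv)).trans e).trans (map_zero _).symm)
  rw [← QuotientAddGroup.mk_nsmul, QuotientAddGroup.eq_zero_iff] at this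
  have k := hm_mk x 1 ⟨_, this⟩
  rw [show (((⟨2 • s, this⟩ : ℤ_[2]) : K) / 2 ^ 1) = s by simp] at k
  rw [k]
  exact nsmul_mem (AddSubgroup.mem_zmultiples (TM.cp 1 x)) _

end hm

section abs

variable {G H : Type} [AddCommGroup G] [AddCommGroup H]

theorem rel_card (D C : AddSubgroup G) : D.relIndex C * Nat.card ↥(D ⊓ C) = Nat.card C := by
  rw [← (D.addSubgroupOf C).card_mul_index, mul_comm, ← AddSubgroup.inf_addSubgroupOf_right,
    Nat.card_congr (AddSubgroup.addSubgroupOfEquivOfLe inf_le_right).toEquiv,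
    AddSubgroup.inf_addSubgroupOf_right]
  rfl

theorem rel_map (f : G →+ H) {D C : AddSubgroup G} (h : D ≤ C) :
    (D.map f).relIndex (C.map f) * Nat.card ↥(f.ker ⊓ C) =
      D.relIndex C * Nat.card ↥(f.ker ⊓ D) := by
  rw [← AddSubgroup.relIndex_comap, AddSubgroup.comap_map_eq, ← AddSubgroup.inf_relIndex_right,
    sup_inf_assoc_of_le _ h, ← AddSubgroup.relIndex_mul_relIndex D (D ⊔ f.ker ⊓ C) C le_sup_left
      (sup_le h inf_le_right), AddSubgroup.relIndex_sup_left, ← rel_card D (f.ker ⊓ C),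
    inf_left_comm, inf_eq_left.2 h]
  ring

end abs

variable (A B : ℤ)

/-- the points of order a power of two which are fixed by `c` -/
def Ac (c : GQ) : AddSubgroup (Pt A B) := T2 A B ⊓ (ga c).eqLocus (AddMonoidHom.id _)

/-- the rational points of order a power of two -/
def Ag : AddSubgroup (Pt A B) := T2 A B ⊓ Fx A B ⊤

/-- `g` is a basis of the part of the Tate module fixed by `c` -/
def Gp (c : GQ) (g : Tm A B) : Prop := rho A B c g = g ∧ TM.cp 1 g ≠ 0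

/-- the number of real components -/
def p0 : ℕ := if 4 * A ^ 3 + 27 * B ^ 2 < 0 then 2 else 1

variable {A B} {c : GQ} {g : Tm A B}

theorem mem_Ac {Q : Pt A B} : Q ∈ Ac A B c ↔ (∃ k : ℕ, 2 ^ k • Q = 0) ∧ ga c Q = Q := Iff.rfl

theorem mem_Ag {Q : Pt A B} : Q ∈ Ag A B ↔ (∃ k : ℕ, 2 ^ k • Q = 0) ∧ ∀ g, ga g Q = Q :=
  ⟨fun h => ⟨h.1, fun g => h.2 g trivial⟩, fun h => ⟨h.1, fun g _ => h.2 g⟩⟩

theorem Ag_le (c : GQ) : Ag A B ≤ Ac A B c := fun _ h => ⟨h.1, h.2 c trivial⟩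

theorem Gp.le (h : Gp A B c g) : (hm g).range ≤ Ac A B c := fun Q hQ => by
  obtain ⟨k, a, rfl⟩ := mem_hm.1 hQ
  exact mem_Ac.2 ⟨⟨k, TM.pow_smul_cp _ _⟩, by rw [← cp_rho, map_smul, h.1]⟩

variable (hD : 4 * A ^ 3 + 27 * B ^ 2 ≠ 0)
include hD

theorem hq : 4 * (A : ℚ) ^ 3 + 27 * (B : ℚ) ^ 2 ≠ 0 := by exact_mod_cast hD

/-- the fixed part has rank one -/
theorem Gp.line (hc : P022.St.IsConj c) (h : Gp A B c g) {x : Tm A B} (hx : rho A B c x = x) :
    ∃ a : ℤ_[2], x = a • g := by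
  let b := bs (hq hD)
  have f : ∀ y : Tm A B, rho A B c y = y →
      (mt (hq hD) c).mulVec (b.repr y) = b.repr y := fun y hy =>
    (LinearMap.toMatrix_mulVec_repr b b _ y).trans (by rw [hy])
  have d := det_conj (hq hD) hc
  have a0 := congrFun (f g h.1) 0
  have a1 := congrFun (f g h.1) 1
  have b0 := congrFun (f x hx) 0
  have b1 := congrFun (f x hx) 1
  simp only [Matrix.mulVec, dotProduct, Fin.sum_univ_two, Matrix.det_fin_two] at a0 a1 b0 b1 d
  have e : b.repr g 0 * b.repr x 1 = b.repr g 1 * b.repr x 0 := by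
    have : 2 * (b.repr g 0 * b.repr x 1 - b.repr g 1 * b.repr x 0) = 0 := by
      linear_combination (b.repr g 0 * b.repr x 1 - b.repr g 1 * b.repr x 0) * d -
        b.repr x 1 * a0 - (mt (hq hD) c 0 0 * b.repr g 0 + mt (hq hD) c 0 1 * b.repr g 1) * b1 +
        b.repr x 0 * a1 + (mt (hq hD) c 1 0 * b.repr g 0 + mt (hq hD) c 1 1 * b.repr g 1) * b0
    exact sub_eq_zero.1 ((mul_eq_zero.1 this).resolve_left two_ne_zero)
  by_cases u0 : IsUnit (b.repr g 0)
  · obtain ⟨v, hv⟩ := u0.exists_left_inv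
    refine ⟨v * b.repr x 0, b.ext_elem (Fin.forall_fin_two.2 ⟨?_, ?_⟩)⟩ <;>
      simp only [map_smul, Finsupp.smul_apply, smul_eq_mul]
    · linear_combination -b.repr x 0 * hv
    · linear_combination v * e - b.repr x 1 * hv
  by_cases u1 : IsUnit (b.repr g 1)
  · obtain ⟨v, hv⟩ := u1.exists_left_inv
    refine ⟨v * b.repr x 1, b.ext_elem (Fin.forall_fin_two.2 ⟨?_, ?_⟩)⟩ <;>
      simp only [map_smul, Finsupp.smul_apply, smul_eq_mul]
    · linear_combination -v * e - b.repr x 0 * hv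
    · linear_combination -b.repr x 1 * hv
  obtain ⟨v, hv⟩ := (PadicInt.norm_lt_one_iff_dvd _).1 (PadicInt.not_isUnit_iff.1 u0)
  obtain ⟨w, hw⟩ := (PadicInt.norm_lt_one_iff_dvd _).1 (PadicInt.not_isUnit_iff.1 u1)
  refine absurd (TM.cp_eq_zero_iff.2 ⟨b.equivFun.symm ![v, w], b.ext_elem
    (Fin.forall_fin_two.2 ⟨?_, ?_⟩)⟩) h.2 <;> simp [hv, hw]

theorem ex_gp (hc : P022.St.IsConj c) : ∃ g, Gp A B c g := by
  obtain ⟨x, hx⟩ : ∃ x : Tm A B, rho A B c x + x ≠ 0 := by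
    by_contra! n
    refine conj_ne (hq hD) hc (-1) (.inr rfl) ?_
    rw [mt_eq, show rho A B c = (-1 : ℤ_[2]) • 1 from LinearMap.ext fun x => by
      simpa using eq_neg_of_add_eq_zero_left (n x), map_smul, map_one]
  have e : rho A B c (rho A B c x + x) = rho A B c x + x := by
    rw [map_add, ← Module.End.mul_apply, ← map_mul, conj_sq (hq hD) hc, map_one, add_comm]
    rfl
  generalize rho A B c x + x = y at hx e
  obtain ⟨k, hk⟩ : ∃ k, TM.cp k y ≠ 0 := by
    by_contra! n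
    exact hx (TM.ext fun r => (n r).trans (map_zero _).symm)
  induction k generalizing y with
  | zero => exact absurd (TM.cp_zero y) hk
  | succ k ih =>
    by_cases h1 : TM.cp 1 y = 0
    · obtain ⟨z, rfl⟩ := TM.cp_eq_zero_iff.1 h1
      refine ih z (fun a => hx (by rw [a, smul_zero])) (sub_eq_zero.1 (TM.eq_zero_of_pow_smul (r := 1)
        (by rw [smul_sub, ← map_smul, e, sub_self]))) fun a => hk ?_
      rw [TM.cp_pow_smul, TM.cp_add, a]
    · exact ⟨y, e, h1⟩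

theorem Gp.two (hc : P022.St.IsConj c) (h : Gp A B c g) {Q : Pt A B} (hQ : Q ∈ Ac A B c) :
    2 • Q ∈ (hm g).range := by
  obtain ⟨⟨k, hk⟩, e⟩ := mem_Ac.1 hQ
  obtain ⟨x, rfl⟩ := TM.exists_cp (hdiv (hq hD)) hk
  obtain ⟨a, ha⟩ := h.line hD hc (x := rho A B c x + x) (by
    rw [map_add, ← Module.End.mul_apply, ← map_mul, conj_sq (hq hD) hc, map_one, add_comm]
    rfl)
  exact mem_hm.2 ⟨k, a, by rw [← ha, map_add, cp_rho, e, two_nsmul]⟩

/-- all points of order two are real if and only if the discriminant is positive -/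
theorem real_two (hc : P022.St.IsConj c) (h : Gp A B c g) :
    (∀ Q : Pt A B, 2 • Q = 0 → ga c Q = Q) ↔ 4 * A ^ 3 + 27 * B ^ 2 < 0 := by
  obtain ⟨φ, hφ⟩ := hc
  have h2 : 2 • TM.cp 1 g = 0 := (TM.cp_succ g 0).trans (TM.cp_zero g)
  have f1 : ga c (TM.cp 1 g) = TM.cp 1 g := by rw [← cp_rho, h.1]
  have re : ∀ {x : Qb}, c x = x ↔ ∃ t : ℝ, φ x = t := fun {x} => by
    rw [← Complex.conj_eq_iff_real, ← hφ, φ.injective.eq_iff]
  have ev : ∀ {x : Qb}, (Cv Qb (A : ℚ) (B : ℚ)).Nonsingular x 0 → φ x ^ 3 + A * φ x + B = 0 :=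
    fun {x} n => by
      have := congrArg φ (P004H.H666.eqn n)
      simp only [map_pow, map_add, map_mul, map_intCast, map_zero] at this
      linear_combination -this
  have n0 := h.2
  rcases e0 : TM.cp 1 g with _ | ⟨e, y, n⟩
  · exact absurd e0 n0
  rw [e0] at h2 f1
  obtain rfl := (two_tors two_ne_zero n).1 h2
  obtain ⟨s, hs⟩ := re.1 (Point.some.inj ((ga_some c n).symm.trans f1)).1
  have es : s ^ 3 + A * s + B = 0 := by exact_mod_cast hs ▸ ev n
  have eD : ((4 * A ^ 3 + 27 * B ^ 2 : ℤ) : ℝ) = (3 * s ^ 2 + A) ^ 2 * (3 * s ^ 2 + 4 * A) := by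
    push_cast
    linear_combination (27 * B - 27 * s ^ 3 - 27 * A * s) * es
  have nD : ((4 * A ^ 3 + 27 * B ^ 2 : ℤ) : ℝ) ≠ 0 := by exact_mod_cast hD
  rw [← Int.cast_lt (R := ℝ), Int.cast_zero]
  rw [eD] at nD ⊢
  have p1 : 0 < (3 * s ^ 2 + A) ^ 2 := sq_pos_of_ne_zero fun a => nD (by simp [a])
  have ec : φ e ^ 3 + A * φ e + B = 0 := ev n
  rw [hs] at ec
  constructor
  · intro H
    obtain ⟨z, hz⟩ := IsAlgClosed.exists_pow_nat_eq (-(3 * e ^ 2 + 4 * A) : Qb) two_pos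
    have n' : (Cv Qb (A : ℚ) (B : ℚ)).Nonsingular ((z - e) / 2) 0 :=
      nsg_cv two_ne_zero (hq hD) (by
        have := P004H.H666.eqn n
        simp only [map_intCast] at this ⊢
        linear_combination this - (z - 3 * e) / 8 * hz)
    obtain ⟨t, ht⟩ := re.1 (Point.some.inj ((ga_some c n').symm.trans
      (H _ ((two_tors two_ne_zero n').2 rfl)))).1
    have := congrArg φ hz
    simp only [map_pow, map_add, map_mul, map_intCast, map_neg, map_ofNat, map_div₀, map_sub, hs]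
      at this ht
    rw [show φ z = (2 * t + s : ℝ) by push_cast; linear_combination 2 * ht] at this
    have k : (2 * t + s) ^ 2 = -(3 * s ^ 2 + 4 * A) := by exact_mod_cast this
    exact mul_neg_of_pos_of_neg p1 (lt_of_le_of_ne (by nlinarith [sq_nonneg (2 * t + s)])
      (right_ne_zero_of_mul nD))
  · rintro H (_ | ⟨x, y, m⟩) hQ
    · exact map_zero _
    obtain rfl := (two_tors two_ne_zero m).1 hQ
    have k : 3 * s ^ 2 + 4 * A < 0 := by
      by_contra! k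
      exact absurd H (not_lt.2 (mul_nonneg p1.le k))
    obtain ⟨r, hr⟩ : ∃ r : ℝ, r ^ 2 = -(3 * s ^ 2 + 4 * A) := ⟨_, Real.sq_sqrt (by linarith)⟩
    have hr' : (r : ℂ) ^ 2 = -(3 * s ^ 2 + 4 * A) := by exact_mod_cast hr
    have : (φ x - s) * (φ x - ((r - s) / 2 : ℝ)) * (φ x - ((-r - s) / 2 : ℝ)) = 0 := by
      push_cast
      linear_combination ev m - ec - (φ x - s) / 4 * hr'
    simp only [mul_eq_zero, sub_eq_zero] at this
    have cx : c x = x := re.2 (by rcases this with (a | a) | a <;> exact ⟨_, a⟩)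
    rw [ga_some]
    simp only [cx, map_zero]

/-- **the number of components** -/
theorem Gp.p0 (hc : P022.St.IsConj c) (h : Gp A B c g) :
    (hm g).range.relIndex (Ac A B c) = p0 A B := by
  let N := Ac A B c ⊓ tors (Pt A B) 2
  have e : Ac A B c = (hm g).range ⊔ N := le_antisymm (fun Q hQ => by
    obtain ⟨z, hz, e⟩ := hm_div (h.two hD hc hQ)
    exact AddSubgroup.mem_sup.2 ⟨z, hz, Q - z, ⟨(Ac A B c).sub_mem hQ (h.le hz),
      show 2 • (Q - z) = 0 by rw [nsmul_sub, e, sub_self]⟩, add_sub_cancel _ _⟩)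
    (sup_le h.le inf_le_left)
  have k := rel_card (hm g).range N
  rw [← inf_assoc, inf_eq_left.2 h.le, hm_two h.2, ← AddSubgroup.relIndex_sup_left, ← e] at k
  have c4 : Nat.card (tors (Pt A B) 2) = 4 := card_two two_ne_zero (hq hD)
  have d4 := rel_card (Ac A B c) (tors (Pt A B) 2)
  rw [← k, c4] at d4
  have r := real_two hD hc h
  rw [Bt.p0]
  split_ifs with a
  · rw [AddSubgroup.relIndex_eq_one.2 fun Q hQ => mem_Ac.2 ⟨⟨1, by rwa [pow_one]⟩, r.2 a Q hQ⟩] at d4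
    omega
  · have : (Ac A B c).relIndex (tors (Pt A B) 2) ≠ 1 := fun b =>
      a (r.1 fun Q hQ => (AddSubgroup.relIndex_eq_one.1 b hQ).2)
    generalize (Ac A B c).relIndex (tors (Pt A B) 2) = u at *
    generalize (hm g).range.relIndex (Ac A B c) = v at *
    have : u * v = 2 := by linarith [mul_assoc u v 2]
    exact ((Nat.prime_two.eq_one_or_self_of_dvd v ⟨u, by rw [← this, mul_comm]⟩).resolve_right
      fun b => by rw [b] at this; omega)

omit hD in
theorem ker_dd {Q : Pt A B} : Q ∈ (dd A B).ker ↔ ∀ g, ga g Q = Q :=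
  funext_iff.trans (forall_congr' fun _ => sub_eq_zero)

/-- **the sequence** `0 → A^G → A^c → d A^c → 0` -/
theorem Gp.seq (hc : P022.St.IsConj c) (h : Gp A B c g) :
    ((dd A B).comp (hm g)).range.relIndex ((Ac A B c).map (dd A B)) * Nat.card (Ag A B) =
      Bt.p0 A B * Nat.card ((dd A B).comp (hm g)).ker := by
  have k := rel_map (dd A B) h.le
  rw [h.p0 hD hc, show (dd A B).ker ⊓ Ac A B c = Ag A B from AddSubgroup.ext fun Q =>
    ⟨fun a => mem_Ag.2 ⟨a.2.1, ker_dd.1 a.1⟩, fun a => ⟨ker_dd.2 (mem_Ag.1 a).2, Ag_le c a⟩⟩] at k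
  rw [AddMonoidHom.range_comp, k, ← AddMonoidHom.comap_ker, inf_comm,
    ← AddSubgroup.map_comap_eq, AddSubgroup.card_map_of_injective (hm_inj h.2)]

end Vale.Agent.P014T.Bt
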