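import Vale.Agent.P014T.Bt.Ac
import Vale.Agent.P014T.Sh.Ur

/-! # P014T, block B: the framed cocycles which come from rational points -/

set_option autoImplicit false
set_option linter.all false

open NumberField
open scoped Classical

noncomputable section

namespace Vale.Agent.P014T.Bt

open Vale.Agent.P022 (Qb GQ)
open Vale.Agent.P022K.G2 (In)
open P004M.TE hiding Qb GQ
open P027M.K
open P004S.Ga (K O mem_O)
open Wm (Fx)
open Ba (Dv u)

section abs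

variable {X T Z W : Type} [AddCommGroup X] [AddCommGroup T] [AddCommGroup Z] [AddCommGroup W]

/-- the snake lemma for orders -/
theorem snk (δ : Z →+ W) (γ : X →+ Z) (x : T →+ Z) (h : γ.range ≤ δ.ker)
    (s : Function.Surjective (δ.comp x)) :
    Nat.card (γ.coprod x).ker * γ.range.relIndex δ.ker =
      Nat.card γ.ker * Nat.card (δ.comp x).ker * (γ.coprod x).range.index := by
  let C := (δ.comp x).ker.comap (AddMonoidHom.snd X T)
  have z : ∀ p : X × T, δ (γ.coprod x p) = δ (x p.2) := fun p => by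
    rw [AddMonoidHom.coprod_apply, map_add, show δ (γ p.1) = 0 from h ⟨_, rfl⟩, zero_add]
  have le : (AddMonoidHom.inl X T).range ≤ C := by
    rintro _ ⟨a, rfl⟩
    exact map_zero (δ.comp x)
  have k := rel_map (γ.coprod x) le
  have e1 : (AddMonoidHom.inl X T).range.map (γ.coprod x) = γ.range := by
    rw [← AddMonoidHom.range_comp, AddMonoidHom.coprod_comp_inl]
  have e2 : C.map (γ.coprod x) = (γ.coprod x).range ⊓ δ.ker := AddSubgroup.ext fun y =>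
    ⟨fun ⟨p, a, e⟩ => ⟨⟨p, e⟩, e ▸ (z p).trans a⟩,
      fun ⟨⟨p, e⟩, a⟩ => ⟨p, (z p).symm.trans ((congrArg δ e).trans a), e⟩⟩
  have e3 : (γ.coprod x).ker ⊓ C = (γ.coprod x).ker := inf_eq_left.2 fun p a =>
    (z p).symm.trans ((congrArg δ a).trans (map_zero δ))
  have e4 : (AddMonoidHom.inl X T).range.relIndex C = Nat.card (δ.comp x).ker := by
    rw [show (AddMonoidHom.inl X T).range = (AddMonoidHom.snd X T).ker from AddSubgroup.ext fun p =>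
      ⟨fun ⟨_, e⟩ => e ▸ rfl, fun e => ⟨p.1, Prod.ext rfl e.symm⟩⟩, AddSubgroup.relIndex_ker,
      AddSubgroup.map_comap_eq_self_of_surjective Prod.snd_surjective]
  have e5 : Nat.card ↥((γ.coprod x).ker ⊓ (AddMonoidHom.inl X T).range) = Nat.card γ.ker := by
    rw [inf_comm, ← AddSubgroup.map_comap_eq, AddSubgroup.card_map_of_injective
      (Prod.mk_left_injective 0), AddMonoidHom.comap_ker, AddMonoidHom.coprod_comp_inl]
  have e6 : (γ.coprod x).range.relIndex δ.ker = (γ.coprod x).range.index := by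
    rw [← AddSubgroup.relIndex_sup_right, ← AddSubgroup.relIndex_top_right,
      show δ.ker ⊔ (γ.coprod x).range = ⊤ from eq_top_iff.2 fun y _ => ?_]
    obtain ⟨t, e⟩ := s (δ y)
    exact AddSubgroup.mem_sup.2 ⟨y - x t, by simpa [sub_eq_zero] using e.symm, x t, ⟨(0, t), by simp⟩,
      sub_add_cancel _ _⟩
  rw [e1, e2, e3, e4, e5] at k
  rw [← AddSubgroup.relIndex_mul_relIndex γ.range ((γ.coprod x).range ⊓ δ.ker) δ.ker
    (le_inf (e1 ▸ AddSubgroup.map_le_range _ _) h) inf_le_right, AddSubgroup.inf_relIndex_right, e6,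
    ← mul_assoc, mul_comm (Nat.card _), k, mul_comm (Nat.card (δ.comp x).ker)]

end abs

variable (A B : ℤ)

/-- the points fixed by `c` of which a multiple by a power of two is rational -/
def Mc (c : GQ) : AddSubgroup (Pt A B) where
  carrier := {Q | (∃ k : ℕ, 2 ^ k • Q ∈ Fx A B ⊤) ∧ ga c Q = Q}
  zero_mem' := ⟨⟨0, by simp⟩, map_zero _⟩
  add_mem' := fun ⟨⟨k, a⟩, e⟩ ⟨⟨j, b⟩, f⟩ => ⟨⟨k + j, by
    rw [nsmul_add, pow_add, mul_nsmul, mul_nsmul']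
    exact add_mem (nsmul_mem a _) (nsmul_mem b _)⟩, by rw [map_add, e, f]⟩
  neg_mem' := fun ⟨⟨k, a⟩, e⟩ => ⟨⟨k, by rw [neg_nsmul]; exact neg_mem a⟩, by rw [map_neg, e]⟩

variable {A B} {S : Finset ℕ} {c : GQ} {g : Tm A B} {Q : Pt A B}

theorem Ac_le : Ac A B c ≤ Mc A B c :=
  fun _ h => ⟨(mem_Ac.1 h).1.elim fun k a => ⟨k, a ▸ zero_mem _⟩, h.2⟩

theorem Fx_le : Fx A B ⊤ ≤ Mc A B c := fun _ h => ⟨⟨0, by simpa using h⟩, h c trivial⟩

theorem dd_fx (h : Q ∈ Fx A B ⊤) : dd A B Q = 0 := ker_dd.2 fun g => h g trivial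

theorem mc_of (h : dd A B Q ∈ Z0 A B S c) : Q ∈ Mc A B c :=
  ⟨h.2.2.1.imp fun k a g _ => by rw [map_nsmul, ← sub_eq_zero, ← nsmul_sub]; exact a g,
    sub_eq_zero.1 h.2.2.2.2⟩

/-- torsion points give nothing new -/
theorem dd_tor (h : Q ∈ Mc A B c) (t : IsOfFinAddOrder Q) :
    dd A B Q ∈ (Ac A B c).map (dd A B) := by
  obtain ⟨⟨k, a⟩, e⟩ := h
  obtain ⟨n, n0, hn⟩ := isOfFinAddOrder_iff_nsmul_eq_zero.1 t
  obtain ⟨j, m, om, rfl⟩ := Nat.exists_eq_two_pow_mul_odd n0.ne'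
  obtain ⟨v, w, b⟩ : IsCoprime (m : ℤ) (2 ^ k : ℕ) :=
    Nat.isCoprime_iff_coprime.2 ((Nat.coprime_two_right.2 om).pow_right k)
  refine ⟨v • m • Q, mem_Ac.2 ⟨⟨j, by rw [smul_comm, ← mul_nsmul', hn, smul_zero]⟩,
    by rw [map_zsmul, map_nsmul, e]⟩, ?_⟩
  rw [← add_zero (dd A B _), ← dd_fx (zsmul_mem a w), ← map_add, ← natCast_zsmul, ← natCast_zsmul,
    ← mul_smul, ← mul_smul, ← add_zsmul, b, one_zsmul]

variable (hS : ∀ l : ℕ, l.Prime → (l : ℤ) ∣ 2 * (4 * A ^ 3 + 27 * B ^ 2) → l ∈ S)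
include hS

theorem dd_mem (h : Q ∈ Mc A B c) : dd A B Q ∈ Zk A B S c := by
  obtain ⟨⟨k, a⟩, e⟩ := h
  have t : ∀ g, 2 ^ k • (ga g Q - Q) = 0 := fun g => by
    rw [nsmul_sub, ← map_nsmul, a g trivial, sub_self]
  refine ⟨⟨((IsLocallyConstant.iff_eventually_eq _).2 fun g => ev_ga g Q).comp fun z => z - Q,
    fun g j => by simp only [dd_apply, ga_mul, map_sub]; abel, ⟨k, t⟩, ?_, sub_eq_zero.2 e⟩,
    Q, fun _ _ => rfl⟩
  rintro g ⟨l, n, P, o, i⟩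
  exact sub_eq_zero.2 (Sh.ur1 (fun b => n (hS l o.1 b)) o i (t g))

theorem zk_eq : Zk A B S c = (Mc A B c).map (dd A B) :=
  le_antisymm (fun x ⟨h, Q, e⟩ => by
    obtain rfl : x = dd A B Q := funext fun g => e g trivial
    exact ⟨Q, mc_of h, rfl⟩) fun _ ⟨_, h, e⟩ => e ▸ dd_mem hS h

theorem ac_le : (Ac A B c).map (dd A B) ≤ Zk A B S c := zk_eq hS ▸ AddSubgroup.map_mono Ac_le

/-- **rank zero** -/
theorem zk_zero (h : ∀ Q ∈ Fx A B ⊤, IsOfFinAddOrder Q) : Zk A B S c = (Ac A B c).map (dd A B) :=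
  le_antisymm (zk_eq hS ▸ fun _ ⟨Q, a, e⟩ => e ▸ dd_tor a (a.1.elim fun k b =>
    (isOfFinAddOrder_nsmul.1 (h _ b)).resolve_right (by positivity))) (ac_le hS)

/-- **rank one** -/
theorem ex_dl (hD : 4 * A ^ 3 + 27 * B ^ 2 ≠ 0) (hc : c * c = 1) {e : Pt A B} (he : e ∈ Fx A B ⊤)
    (nt : ¬ IsOfFinAddOrder e) (gn : ∀ Q ∈ Fx A B ⊤, ∃ n : ℤ, IsOfFinAddOrder (Q - n • e)) :
    ∃ δ : Zk A B S c →+ Dv, Function.Surjective δ ∧
      δ.ker = ((Ac A B c).map (dd A B)).addSubgroupOf _ ∧ ∀ (x : Zk A B S c) (Q : Pt A B) (k : ℕ)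
        (n : ℤ), x = dd A B Q → IsOfFinAddOrder (2 ^ k • Q - n • e) → δ x = n • u k := by
  have ex : ∀ x : Zk A B S c, ∃ (Q : Pt A B) (k : ℕ) (n : ℤ), x = dd A B Q ∧
      IsOfFinAddOrder (2 ^ k • Q - n • e) := fun ⟨x, hx⟩ => by
    obtain ⟨Q, ⟨⟨k, a⟩, -⟩, rfl⟩ := (zk_eq hS).le hx
    exact ⟨Q, k, (gn _ a).imp fun _ b => ⟨rfl, b⟩⟩
  have un : ∀ {Q Q' : Pt A B} {k j : ℕ} {n m : ℤ}, dd A B Q = dd A B Q' →
      IsOfFinAddOrder (2 ^ k • Q - n • e) → IsOfFinAddOrder (2 ^ j • Q' - m • e) →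
      n • u k = m • u j := fun {Q Q' k j n m} h a b => by
    obtain ⟨r, t⟩ := gn (Q - Q') fun g _ => ker_dd.1 (by rw [AddMonoidHom.mem_ker, map_sub, h,
      sub_self]) g
    have := ((t.nsmul (n := 2 ^ (k + j))).add (b.nsmul (n := 2 ^ k))).add (a.nsmul (n := 2 ^ j)).neg
    rw [show 2 ^ (k + j) • (Q - Q' - r • e) + 2 ^ k • (2 ^ j • Q' - m • e) +
      -(2 ^ j • (2 ^ k • Q - n • e)) = (2 ^ j * n - 2 ^ k * m - 2 ^ (k + j) * r) • e by module]
      at this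
    have z : 2 ^ j * n - 2 ^ k * m - 2 ^ (k + j) * r = 0 := by_contra fun z => nt (by
      obtain ⟨i, i0, e⟩ := isOfFinAddOrder_iff_zsmul_eq_zero.1 this
      exact isOfFinAddOrder_iff_zsmul_eq_zero.2 ⟨_, mul_ne_zero i0 z, (mul_zsmul ..).trans e⟩)
    rw [← Ba.pow_u j k, ← Ba.pow_u k j, add_comm j k, ← sub_eq_zero, ← (Ba.u_ord (2 ^ (k + j) * r)
      (k + j)).2 ⟨r, rfl⟩, ← sub_eq_zero, ← zero_smul ℤ (u (k + j)), ← z]
    module
  choose q k n h1 h2 using ex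
  let δ : Zk A B S c →+ Dv := .mk' (fun x => n x • u (k x)) fun x y => by
    refine (un (Q' := q x + q y) (j := k x + k y) (m := 2 ^ k y * n x + 2 ^ k x * n y)
      (by rw [map_add, ← h1, ← h1, ← h1]; rfl) (h2 _) ?_).trans ?_
    · exact (by module : 2 ^ k y • (2 ^ k x • q x - n x • e) + 2 ^ k x • (2 ^ k y • q y - n y • e) =
        2 ^ (k x + k y) • (q x + q y) - (2 ^ k y * n x + 2 ^ k x * n y) • e) ▸
        ((h2 x).nsmul (n := 2 ^ k y)).add ((h2 y).nsmul (n := 2 ^ k x))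
    · rw [← Ba.pow_u (k y) (k x), ← Ba.pow_u (k x) (k y), add_comm (k y)]
      module
  have sp : ∀ (x : Zk A B S c) (Q : Pt A B) (k : ℕ) (n : ℤ), x = dd A B Q →
      IsOfFinAddOrder (2 ^ k • Q - n • e) → δ x = n • u k :=
    fun x Q j m a b => un ((h1 x).symm.trans a) (h2 x) b
  refine ⟨δ, fun d => ?_, AddSubgroup.ext fun x => ⟨fun a => ?_, fun ⟨Q, ⟨⟨j, a⟩, _⟩, b⟩ => ?_⟩, sp⟩
  · obtain ⟨j, a⟩ := Ba.dv_tor d
    obtain ⟨m, rfl⟩ := Ba.tk_gen a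
    obtain ⟨R, hR⟩ : ∃ R : Pt A B, 2 ^ (j + 1) • R = e := by
      generalize j + 1 = i
      induction i with
      | zero => exact ⟨e, by simp⟩
      | succ i ih =>
        obtain ⟨R, rfl⟩ := ih
        obtain ⟨R, rfl⟩ := dbl_surj two_ne_zero (hq hD) R
        exact ⟨R, by rw [pow_succ, mul_smul]⟩
    have t : 2 ^ (j + 1) • (R + ga c R) = (2 : ℤ) • e := by
      rw [nsmul_add, ← map_nsmul, hR, he c trivial, two_zsmul]
    refine ⟨m • ⟨_, dd_mem hS (Q := R + ga c R) ⟨⟨j + 1, t ▸ zsmul_mem he 2⟩, by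
      rw [map_add, ← ga_mul, hc, ga_one, add_comm]⟩⟩, ?_⟩
    rw [map_zsmul, sp _ _ (j + 1) 2 rfl (by rw [t, sub_self]; exact IsOfFinAddOrder.zero),
      ← Ba.pow_u 1 j, add_comm 1 j]
    rfl
  · obtain ⟨m, b⟩ := (Ba.u_ord _ _).1 a
    have t := h2 x
    rw [b, show 2 ^ k x • q x - (2 ^ k x * m) • e = 2 ^ k x • (q x - m • e) by module] at t
    have := dd_tor (sub_mem (mc_of (h1 x ▸ x.2.1)) (Fx_le (zsmul_mem he m)))
      ((isOfFinAddOrder_nsmul.1 t).resolve_right (by positivity))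
    rwa [map_sub, dd_fx (zsmul_mem he m), sub_zero, ← h1] at this
  · exact (sp x Q j 0 b.symm (by rw [a, zero_zsmul, sub_zero]; exact IsOfFinAddOrder.zero)).trans
      (zero_zsmul _)

end Vale.Agent.P014T.Bt
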