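import Vale.Agent.P014T.Bt.Kum
import Vale.Agent.P014T.Ba.Lev
import Vale.Agent.P014T.Lc.Vol
import Vale.Agent.P014T.Ht.Can

/-! # P014T, block B: corank two bounds the rank and the group of Tate and Shafarevich -/

set_option autoImplicit false
set_option linter.all false

open NumberField
open scoped Classical

noncomputable section

namespace Vale.Agent.P014T.Bt

open Vale.Agent.P022 (Qb GQ)
open P004M.TE hiding Qb GQ
open P027M.K
open P004S.Ga (K O mem_O)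
open Wm (Fx)
open Ba (Dv u Tk Tp mu sp mem_Tk)
open Sm (Md up)

section abs

variable {Z : Type} [AddCommGroup Z]

/-- the orders of the levels become stationary early -/
theorem stab [Finite (Tk Z 1)] (low : ∀ j, 4 * Nat.card (Tk Z j) ≤ Nat.card (Tk Z (j + 1)))
    {n b : ℕ} (h : Nat.card (Tk Z n) ≤ 4 ^ n * 2 ^ b) (hb : b < n) :
    ∃ k ≤ b, ∃ D ≠ 0, ∀ j, k ≤ j → Nat.card (Tk Z j) = 4 ^ j * D := by
  have hf := Ba.fin_all (Z := Z)
  have f (j) : Finite ↥((mu Z j).range ⊓ Tk Z 1) :=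
    Finite.of_injective _ (AddSubgroup.inclusion_injective inf_le_right)
  obtain ⟨m, hm⟩ : ∃ m : ℕ → ℕ, ∀ j, Nat.card ↥((mu Z j).range ⊓ Tk Z 1) = 2 ^ m j :=
    ⟨_, fun j => (Nat.card_congr (Equiv.subtypeUnivEquiv fun y => ⟨1, Subtype.ext y.2.2⟩)).symm.trans
      (Lc.card_pp _ 2)⟩
  have st (j) : Nat.card (Tk Z (j + 1)) = Nat.card (Tk Z j) * 2 ^ m j := by
    rw [← hm, Ba.step, add_comm]
  have m2 (j) : 2 ≤ m j := (Nat.pow_le_pow_iff_right one_lt_two).1 (Nat.le_of_mul_le_mul_left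
    (by rw [← st, mul_comm]; exact low j) (Nat.card_pos (α := Tk Z j)))
  have an (j) : m (j + 1) ≤ m j := (Nat.pow_le_pow_iff_right one_lt_two).1 (by
    rw [← hm, ← hm]
    refine AddSubgroup.card_le_of_le (inf_le_inf_right _ ?_)
    rintro _ ⟨z, rfl⟩
    exact ⟨2 • z, by rw [Ba.mu_apply, Ba.mu_apply, pow_succ, mul_smul]⟩)
  have c0 : Nat.card (Tk Z 0) = 1 := AddSubgroup.card_eq_one.2
    (eq_bot_iff.2 fun z a => (one_smul ℕ z).symm.trans a)
  have dv (j) : 4 ^ j ∣ Nat.card (Tk Z j) := by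
    induction j with
    | zero => simp
    | succ j ih => rw [st, pow_succ]; exact mul_dvd_mul ih (pow_dvd_pow 2 (m2 j))
  obtain ⟨k, kb, mk⟩ : ∃ k ≤ b, m k ≤ 2 := by
    by_contra! a
    have : ∀ j, 4 ^ j * 2 ^ min j (b + 1) ≤ Nat.card (Tk Z j) := fun j => by
      induction j with
      | zero => simp [c0]
      | succ j ih =>
        rw [st]
        refine le_trans ?_ (Nat.mul_le_mul_right _ ih)
        rw [pow_succ, mul_assoc, mul_assoc, show 4 = 2 ^ 2 from rfl, ← pow_add, ← pow_add]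
        refine Nat.mul_le_mul_left _ (Nat.pow_le_pow_right two_pos ?_)
        have := m2 j
        have := a j
        omega
    have := Nat.le_of_mul_le_mul_left ((this n).trans h) (by positivity)
    rw [Nat.pow_le_pow_iff_right one_lt_two] at this
    omega
  obtain ⟨D, e⟩ := dv k
  refine ⟨k, kb, D, fun a => (Nat.card_pos (α := Tk Z k)).ne' (by rw [e, a, mul_zero]), fun j hj => ?_⟩
  induction j, hj using Nat.le_induction with
  | base => exact e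
  | succ j hj ih =>
    rw [st, ih, le_antisymm ((antitone_nat_of_succ_le an hj).trans mk) (m2 j)]
    ring

theorem div_le (x : Dv →+ Z) {H : AddSubgroup Z} (h : H.index ≠ 0) (s : Dv) : x s ∈ H := by
  obtain ⟨e, rfl⟩ := Ba.dv_div h s
  rw [map_nsmul]
  exact H.nsmul_index_mem _

theorem sp_coe {H : AddSubgroup Z} (a b : H) : sp a b = sp a.1 b.1 := by
  rw [sp, ← AddSubgroup.card_map_of_injective (f := H.subtype) Subtype.val_injective,
    AddSubgroup.map_sup, AddMonoidHom.map_zmultiples, AddMonoidHom.map_zmultiples]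
  rfl

theorem hm_u (x : TM 2 Z) (j : ℕ) : hm x (u j) = TM.cp j x := by
  simpa [u] using hm_mk x j 1

theorem ex_co (M : Type) [AddCommGroup M] [Module.Finite ℤ M] :
    ∃ (e : Fin (Module.finrank ℤ M) → M) (φ : Fin (Module.finrank ℤ M) → M →+ ℤ),
      ∀ i j, φ i (e j) = if j = i then 1 else 0 := by
  let B := Module.finBasisOfFinrankEq ℤ (M ⧸ Submodule.torsion ℤ M)
    (finrank_quotient_eq_of_le_torsion le_rfl)
  choose e he using fun i => Submodule.mkQ_surjective _ (B i)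
  refine ⟨e, fun i => (B.coord i ∘ₗ (Submodule.torsion ℤ M).mkQ).toAddMonoidHom, fun i j => ?_⟩
  show B.coord i ((Submodule.torsion ℤ M).mkQ (e j)) = _
  rw [he, Module.Basis.coord_apply, B.repr_self, Finsupp.single_apply]

theorem ex_m {a b : K} (h : a ≠ 0) (l : ‖a‖ ≤ ‖b‖) : ∃ m : ℕ, ‖a‖ * 2 ^ m = ‖b‖ := by
  have b0 : b ≠ 0 := fun e => h (by simpa [e] using l)
  have n := norm_pos_iff.2 b0
  let x : ℤ_[2] := ⟨a / b, by rwa [norm_div, div_le_one n]⟩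
  have := PadicInt.norm_eq_zpow_neg_valuation (x := x) fun e =>
    div_ne_zero h b0 (congrArg Subtype.val e)
  rw [show ‖x‖ = ‖a‖ / ‖b‖ from norm_div a b, div_eq_iff n.ne'] at this
  exact ⟨x.valuation, by rw [this]; simp; field_simp⟩

end abs

variable {A B : ℤ} {S : Finset ℕ} {c : GQ} {g : Tm A B} {Q : Pt A B}

theorem dv_of (φ : Fx A B ⊤ →+ ℤ) (h : dd A B Q ∈ (Ac A B c).map (dd A B)) {k : ℕ} (y : Fx A B ⊤)
    (e : 2 ^ k • Q = y) : 2 ^ k ∣ φ y := by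
  obtain ⟨t, ⟨⟨i, a⟩, -⟩, b⟩ := h
  have r : Q - t ∈ Fx A B ⊤ := fun g _ =>
    ker_dd.1 (by rw [AddMonoidHom.mem_ker, map_sub, b, sub_self]) g
  have := congrArg φ (show 2 ^ i • (y - 2 ^ k • ⟨_, r⟩) = 0 from Subtype.ext (by
    show 2 ^ i • (y.1 - 2 ^ k • (Q - t)) = 0
    rw [← e, nsmul_sub Q, sub_sub_cancel, smul_comm, a, nsmul_zero]))
  simp only [map_nsmul, map_sub, map_zero, nsmul_eq_mul, mul_eq_zero, sub_eq_zero] at this
  exact ⟨_, by exact_mod_cast this.resolve_left (by positivity)⟩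

theorem card_ag {E : WeierstrassCurve ℚ} [E.IsElliptic] {v r s t : ℚ} (h : Md E A B v r s t) :
    Nat.card (Ag A B) = 2 ^ padicValNat 2 (P014.torsionOrder E) := by
  have := Sm.fin_tors E
  let f : {y : AddCommGroup.torsion E.toAffine.Point // ∃ k : ℕ, 2 ^ k • y = 0} → Ag A B :=
    fun y => ⟨up h y.1.1, mem_Ag.2 ⟨y.2.imp fun k a => by
      rw [← map_nsmul, show 2 ^ k • y.1.1 = 0 from congrArg Subtype.val a, map_zero],
      fun g => Sm.ga_up h g _⟩⟩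
  refine (Nat.card_eq_of_bijective f ⟨fun x y e => Subtype.ext (Subtype.ext (Sm.upF_inj h
      (congrArg Subtype.val e :))), fun ⟨y, a⟩ => ?_⟩).symm.trans (Lc.card_pp _ 2)
  obtain ⟨⟨k, a⟩, b⟩ := mem_Ag.1 a
  obtain ⟨x, rfl⟩ := Sm.ex_up h b
  have e : 2 ^ k • x = 0 := Sm.upF_inj h ((map_nsmul _ _ _).trans (a.trans (map_zero _).symm))
  exact ⟨⟨⟨x, isOfFinAddOrder_iff_nsmul_eq_zero.2 ⟨_, by positivity, e⟩⟩, k, Subtype.ext e⟩, rfl⟩

variable (hS : ∀ l : ℕ, l.Prime → (l : ℤ) ∣ 2 * (4 * A ^ 3 + 27 * B ^ 2) → l ∈ S)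

/-- the coboundaries of the real line of the Tate module -/
def gm (G : Gp A B c g) : Dv →+ Z0 A B S c :=
  ((dd A B).comp (hm g)).codRestrict _ fun s => (dd_mem hS (Ac_le (G.le ⟨s, rfl⟩))).1

variable (G : Gp A B c g)

theorem gm_u (j : ℕ) : (gm hS G (u j)).1 = dd A B (TM.cp j g) := congrArg (dd A B) (hm_u g j)

theorem gm_mem (s : Dv) : (gm hS G s).1 ∈ (Ac A B c).map (dd A B) := ⟨_, G.le ⟨s, rfl⟩, rfl⟩

theorem gm_ker : (gm hS G).ker = ((dd A B).comp (hm g)).ker := AddMonoidHom.ker_codRestrict ..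

theorem gm_range : (gm hS G).range = ((dd A B).comp (hm g)).range.addSubgroupOf _ :=
  AddSubgroup.ext fun _ => ⟨fun ⟨s, e⟩ => ⟨s, congrArg Subtype.val e⟩, fun ⟨s, e⟩ => ⟨s, Subtype.ext e⟩⟩

theorem gm_le {τ : ℕ} (h : Nat.card (Ag A B) = 2 ^ τ) : (gm hS G).ker ≤ Tk Dv τ := fun s a =>
  hm_inj G.2 (by
    have := congrArg Subtype.val (card_nsmul_eq_zero' (x := (⟨hm g s, mem_Ag.2 ⟨(G.le ⟨s, rfl⟩).1,
      ker_dd.1 (congrArg Subtype.val a)⟩⟩ : Ag A B)))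
    rw [h] at this
    rw [map_nsmul, map_zero]
    exact this)

variable (hD : 4 * A ^ 3 + 27 * B ^ 2 ≠ 0) (hc : c * c = 1)
include hS hD hc

/-- the Kummer line of a rational point -/
theorem ex_ka (e : Fx A B ⊤) : ∃ κ : Dv →+ Z0 A B S c, ∀ k, ∃ Q : Pt A B,
    (κ (u k)).1 = dd A B Q ∧ 2 ^ k • Q = 2 • e.1 := by
  choose nx hx using dbl_surj (L := Qb) two_ne_zero (hq hD)
  have a (k : ℕ) : 2 ^ k • nx^[k] e.1 = e := by
    induction k with
    | zero => exact one_smul ..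
    | succ k ih => rw [Function.iterate_succ_apply', pow_succ, mul_smul, hx, ih]
  have b (k : ℕ) : 2 ^ k • (nx^[k] e.1 + ga c (nx^[k] e.1)) = 2 • e.1 := by
    rw [nsmul_add, ← map_nsmul, a, e.2 c trivial, two_nsmul]
  refine ⟨hm (TM.mk (fun k => ⟨_, (dd_mem hS (Q := nx^[k] e.1 + ga c (nx^[k] e.1)) ⟨⟨k, b k ▸
    nsmul_mem e.2 2⟩, by rw [map_add, ← ga_mul, hc, ga_one, add_comm]⟩).1⟩) (Subtype.ext (dd_fx
      ((one_smul ℕ _).symm.trans (b 0) ▸ nsmul_mem e.2 2))) fun k => Subtype.ext ?_),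
    fun k => ⟨_, congrArg Subtype.val (hm_u _ k), b k⟩⟩
  show 2 • dd A B _ = dd A B _
  rw [← map_nsmul, nsmul_add, ← map_nsmul, Function.iterate_succ_apply', hx]

omit hD hc in
theorem ka_ker {τ : ℕ} (h : Nat.card (Ag A B) = 2 ^ τ) {e : Fx A B ⊤} {κ : Dv →+ Z0 A B S c}
    (hk : ∀ k, ∃ Q : Pt A B, (κ (u k)).1 = dd A B Q ∧ 2 ^ k • Q = 2 • e.1) {φ : Fx A B ⊤ →+ ℤ}
    (f : φ e = 1) : ((gm hS G).coprod κ).ker ≤ Tk (Dv × Dv) (τ + 1) := fun p a => by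
  obtain ⟨k, b⟩ := Ba.dv_tor p.2
  obtain ⟨m, b⟩ := Ba.tk_gen b
  obtain ⟨Q, q1, q2⟩ := hk k
  have a0 : gm hS G p.1 + κ p.2 = 0 := a
  have d := dv_of φ (Q := m • Q) (k := k) (by
    rw [map_zsmul, ← q1, ← AddSubgroup.coe_zsmul, ← map_zsmul, ← b, eq_neg_of_add_eq_zero_right a0]
    exact neg_mem (gm_mem hS G _)) (m • 2 • e) (by rw [smul_comm, q2]; rfl)
  rw [map_zsmul, map_nsmul, f] at d
  have z : 2 ^ 1 • p.2 = 0 := by
    rw [← (Ba.u_ord _ _).2 d, b]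
    module
  refine Prod.ext ?_ (Ba.pow_up (by omega) z)
  have := gm_le hS G h (show gm hS G (2 ^ 1 • p.1) = 0 by
    rw [map_nsmul, eq_neg_of_add_eq_zero_left a0, neg_nsmul, ← map_nsmul, z, map_zero, neg_zero])
  rwa [mem_Tk, smul_smul, ← pow_add] at this

include G

/-- **corank two**: the rank is at most one; in rank one the rational part has finite index -/
theorem rk {τ k D : ℕ} (h : Nat.card (Ag A B) = 2 ^ τ) (D0 : D ≠ 0)
    (z : ∀ j, k ≤ j → Nat.card (Tk (Z0 A B S c) j) = 4 ^ j * D) :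
    Module.finrank ℤ (Fx A B ⊤) ≤ 1 ∧ (Module.finrank ℤ (Fx A B ⊤) ≠ 0 →
      ((Zk A B S c).addSubgroupOf (Z0 A B S c)).index ≠ 0) := by
  have := Wm.finite (Γ := ⊤) hD isOpen_univ
  obtain ⟨e, φ, f⟩ := ex_co (Fx A B ⊤)
  choose κ hk using fun i => ex_ka hS hD hc (e i)
  have ix (i) : ((gm hS G).coprod (κ i)).range.index ≠ 0 := by
    have := Ba.fin_ker (ka_ker hS G h (hk i) ((f i i).trans (if_pos rfl)))
    rwa [Ba.lev (fun x => x.2.2.2.1.imp fun _ a => Subtype.ext (funext a)) _ D0 (z k le_rfl)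
      (z _ k.le_succ)]
  refine ⟨not_lt.1 fun r => ?_, fun r =>
    ne_zero_of_dvd_ne_zero (ix ⟨0, by omega⟩) (AddSubgroup.index_dvd_of_le ?_)⟩
  · obtain ⟨p, a⟩ := div_le (κ ⟨1, r⟩) (ix ⟨0, by omega⟩) (u 2)
    obtain ⟨j, b⟩ := Ba.dv_tor p.2
    obtain ⟨m, b⟩ := Ba.tk_gen b
    obtain ⟨Q, q1, q2⟩ := hk ⟨0, by omega⟩ j
    obtain ⟨R, r1, r2⟩ := hk ⟨1, r⟩ 2
    have d := dv_of (φ ⟨1, r⟩) (Q := R - m • Q) (k := j + 2) (by
      rw [map_sub, map_zsmul, ← q1, ← r1, ← AddSubgroup.coe_zsmul, ← map_zsmul, ← b, ← a,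
        ← AddSubgroup.coe_sub, AddMonoidHom.coprod_apply, add_sub_cancel_right]
      exact gm_mem hS G _) (2 ^ j • 2 • e ⟨1, r⟩ - m • 2 ^ 2 • 2 • e ⟨0, by omega⟩) (by
        show _ = 2 ^ j • 2 • (e _).1 - m • 2 ^ 2 • 2 • (e _).1
        rw [← q2, ← r2]
        module)
    simp only [map_sub, map_zsmul, map_nsmul, f] at d
    simp [pow_add] at d
    exact absurd ((mul_dvd_mul_iff_left (by positivity)).1 d) (by decide)
  · rintro _ ⟨p, rfl⟩
    obtain ⟨j, b⟩ := Ba.dv_tor p.2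
    obtain ⟨m, b⟩ := Ba.tk_gen b
    obtain ⟨Q, q1, -⟩ := hk ⟨0, by omega⟩ j
    refine add_mem (ac_le hS (gm_mem hS G _)) ?_
    rw [AddMonoidHom.comp_apply, AddMonoidHom.coe_snd, b, map_zsmul]
    exact zsmul_mem (show _ ∈ Zk A B S c from ⟨(κ _ _).2, Q, fun g _ => congrFun q1 g⟩) m

end Vale.Agent.P014T.Bt
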